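import Vale.Agent.Lib.P184.Main

/-!
# Matrix form of the vanishing theorem

The abstract theorem `class_trace_eq_zero` specialised to `R = M_q(ℂ)` with the usual trace,
stated for a `q × q` matrix of absolutely summable functions on `G`.
-/

namespace Vale.Agent.Lib.P184

open scoped BigOperators Topology

theorem matrix_class_trace {G : Type*} [Group G] (q : ℕ) (e : Fin q → Fin q → G → ℂ)
    (he_sum : ∀ i j, Summable (fun x => ‖e i j x‖))
    (he_idem : ∀ i j x, ∑ l, ∑' y, e i l y * e l j (y⁻¹ * x) = e i j x)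
    (g : G) (ψ : G → ℝ)
    (hψ1 : ∀ m, ∃ K, ∀ h, |ψ (m * h) - ψ h| ≤ K)
    (hψ2 : ∀ z, z * g = g * z → ∀ h, ψ (h * z) - ψ h = ψ z - ψ 1)
    (hψ3 : ψ g ≠ ψ 1) :
    HasSum (fun c : {c : G // IsConj g c} => ∑ i, e i i c.1) 0 := by
  classical
  let _i1 : NormedRing (Matrix (Fin q) (Fin q) ℂ) := Matrix.linftyOpNormedRing
  let _i2 : NormedAlgebra ℂ (Matrix (Fin q) (Fin q) ℂ) := Matrix.linftyOpNormedAlgebra
  have _i3 : CompleteSpace (Matrix (Fin q) (Fin q) ℂ) := FiniteDimensional.complete ℂ _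
  let τ : Matrix (Fin q) (Fin q) ℂ →L[ℂ] ℂ :=
    LinearMap.toContinuousLinearMap (Matrix.traceLinearMap (Fin q) ℂ ℂ)
  have hτ : ∀ a b, τ (a * b) = τ (b * a) := fun a b => Matrix.trace_mul_comm a b
  let E : G → Matrix (Fin q) (Fin q) ℂ := fun x => Matrix.of (fun i j => e i j x)
  have hnorm : ∀ A : Matrix (Fin q) (Fin q) ℂ, ‖A‖ ≤ ∑ i, ∑ j, ‖A i j‖ := by
    intro A
    have h1 : ‖A‖₊ ≤ ∑ i, ∑ j, ‖A i j‖₊ := by
      rw [Matrix.linfty_opNNNorm_def]
      exact Finset.sup_le (fun i _ =>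
        Finset.single_le_sum (f := fun i => ∑ j, ‖A i j‖₊) (fun _ _ => by positivity)
          (Finset.mem_univ i))
    have h2 : ((‖A‖₊ : NNReal) : ℝ) ≤ ((∑ i, ∑ j, ‖A i j‖₊ : NNReal) : ℝ) := by
      exact_mod_cast h1
    simpa using h2
  have hE : Summable (fun x => ‖E x‖) :=
    Summable.of_nonneg_of_le (fun _ => norm_nonneg _) (fun x => hnorm (E x))
      (summable_sum fun i _ => summable_sum fun j _ => he_sum i j)
  have hsm : ∀ x, Summable (fun y => E y * E (y⁻¹ * x)) := by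
    intro x
    refine Summable.of_norm_bounded (hE.mul_right (∑' z, ‖E z‖)) (fun y => ?_)
    exact (norm_mul_le _ _).trans
      (mul_le_mul_of_nonneg_left (hE.le_tsum _ (fun _ _ => norm_nonneg _)) (norm_nonneg _))
  have hEidem : ∀ x, ∑' y, E y * E (y⁻¹ * x) = E x := by
    intro x
    ext i j
    let φ : Matrix (Fin q) (Fin q) ℂ →L[ℂ] ℂ :=
      LinearMap.toContinuousLinearMap (Matrix.entryLinearMap ℂ ℂ i j)
    have h1 : (∑' y, E y * E (y⁻¹ * x)) i j = ∑' y, (E y * E (y⁻¹ * x)) i j :=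
      φ.map_tsum (hsm x)
    rw [h1]
    simp only [Matrix.mul_apply, E, Matrix.of_apply]
    rw [Summable.tsum_finsetSum (fun l _ => ?_)]
    · exact he_idem i j x
    · refine Summable.of_norm_bounded ((he_sum i l).mul_right (∑' z, ‖e l j z‖)) (fun y => ?_)
      rw [norm_mul]
      exact mul_le_mul_of_nonneg_left ((he_sum l j).le_tsum _ (fun _ _ => norm_nonneg _))
        (norm_nonneg _)
  have key := class_trace_eq_zero τ hτ E hE hEidem g ψ hψ1 hψ2 hψ3
  have hsum : Summable (fun c : {c : G // IsConj g c} => ∑ i, e i i c.1) :=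
    summable_sum fun i _ => ((he_sum i i).of_norm).subtype _
  have hτE : ∀ x : G, τ (E x) = ∑ i, e i i x := fun x => by
    simp only [τ, E, LinearMap.coe_toContinuousLinearMap', Matrix.traceLinearMap_apply,
      Matrix.trace, Matrix.diag_apply, Matrix.of_apply]
  have h0 : ∑' c : {c : G // IsConj g c}, ∑ i, e i i c.1 = 0 := by
    rw [← key]
    exact tsum_congr (fun c => (hτE c.1).symm)
  rw [← h0]
  exact hsum.hasSum

end Vale.Agent.Lib.P184
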